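import Vale.Agent.P237.Quant.TailUniformData
import Vale.Agent.P237.Quant.TailUniformData.negTail100Bin5Part0
import Vale.Agent.P237.Quant.TailUniformData.negTail100Bin5Part1
import Vale.Agent.P237.Quant.TailUniformData.negTail100Bin5Part2
import Vale.Agent.P237.Quant.TailUniformData.negTail100Bin5Part3
import Vale.Agent.P237.Quant.TailUniformData.negTail100Bin5Part4
import Vale.Agent.P237.Quant.TailUniformData.negTail100Bin5Part5

/-!
A checked calibration on a range of dimensions for the negative side, bin 5 of the table from 100.
-/

namespace Vale.Agent.P237.Quant.TailUniform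

/-- The calibration. -/
noncomputable def negTail100Bin5 : Cfg := negTail100Bin5Base.withIvals (negTail100Bin5Part0 ++ negTail100Bin5Part1 ++ negTail100Bin5Part2 ++ negTail100Bin5Part3 ++ negTail100Bin5Part4 ++ negTail100Bin5Part5)

theorem negTail100Bin5_check : negTail100Bin5.check = true :=
  check_withIvals (by decide +kernel) (by simp only [List.all_append, Bool.and_eq_true]; exact ⟨⟨⟨⟨⟨negTail100Bin5Part0_check, negTail100Bin5Part1_check⟩, negTail100Bin5Part2_check⟩, negTail100Bin5Part3_check⟩, negTail100Bin5Part4_check⟩, negTail100Bin5Part5_check⟩)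

end Vale.Agent.P237.Quant.TailUniform
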