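import Vale.Agent.P237.Quant.TailUniformLink
import Vale.Agent.P237.Quant.EnvelopeBinData.UniformFrom100
import Vale.Agent.P237.Quant.TailUniformData.negTail100Bin5

/-!
The tail inequality of one bin for the negative side, bin 5 of the table from 100.
-/

namespace Vale.Agent.P237.Quant.TailUniform

/-- The bin at `100 ≤ n` up to `135`. -/
theorem negTail100Bin5_tail {m : ℕ} (hm : (⟨100, 135⟩ : DimRange).Mem (m + 1)) :
    TailBin m (negW m) (2500 / 3417) 0 ((3/5 : ℚ) : ℝ) ((277/250 : ℚ) : ℝ) :=
  tailBin_neg negTail100Bin5_check envUniformFrom100_check (by decide +kernel) (mem_of_rangeIn (by decide +kernel) hm)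

end Vale.Agent.P237.Quant.TailUniform
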