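import Vale.Agent.P237.Quant.TailUniformData
import Vale.Agent.P237.Quant.TailUniformData.negTail100Bin7Part0
import Vale.Agent.P237.Quant.TailUniformData.negTail100Bin7Part1
import Vale.Agent.P237.Quant.TailUniformData.negTail100Bin7Part2
import Vale.Agent.P237.Quant.TailUniformData.negTail100Bin7Part3
import Vale.Agent.P237.Quant.TailUniformData.negTail100Bin7Part4
import Vale.Agent.P237.Quant.TailUniformData.negTail100Bin7Part5
import Vale.Agent.P237.Quant.TailUniformData.negTail100Bin7Part6
import Vale.Agent.P237.Quant.TailUniformData.negTail100Bin7Part7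
import Vale.Agent.P237.Quant.TailUniformData.negTail100Bin7Part8
import Vale.Agent.P237.Quant.TailUniformData.negTail100Bin7Part9
import Vale.Agent.P237.Quant.TailUniformData.negTail100Bin7Part10

/-!
A checked calibration on a range of dimensions for the negative side, bin 7 of the table from 100.
-/

namespace Vale.Agent.P237.Quant.TailUniform

/-- The calibration. -/
noncomputable def negTail100Bin7 : Cfg := negTail100Bin7Base.withIvals (negTail100Bin7Part0 ++ negTail100Bin7Part1 ++ negTail100Bin7Part2 ++ negTail100Bin7Part3 ++ negTail100Bin7Part4 ++ negTail100Bin7Part5 ++ negTail100Bin7Part6 ++ negTail100Bin7Part7 ++ negTail100Bin7Part8 ++ negTail100Bin7Part9 ++ negTail100Bin7Part10)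

theorem negTail100Bin7_check : negTail100Bin7.check = true :=
  check_withIvals (by decide +kernel) (by simp only [List.all_append, Bool.and_eq_true]; exact ⟨⟨⟨⟨⟨⟨⟨⟨⟨⟨negTail100Bin7Part0_check, negTail100Bin7Part1_check⟩, negTail100Bin7Part2_check⟩, negTail100Bin7Part3_check⟩, negTail100Bin7Part4_check⟩, negTail100Bin7Part5_check⟩, negTail100Bin7Part6_check⟩, negTail100Bin7Part7_check⟩, negTail100Bin7Part8_check⟩, negTail100Bin7Part9_check⟩, negTail100Bin7Part10_check⟩)

end Vale.Agent.P237.Quant.TailUniform
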