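import Vale.Agent.P237.Quant.TailUniformData
import Vale.Agent.P237.Quant.TailUniformData.negTail135Bin5Part0
import Vale.Agent.P237.Quant.TailUniformData.negTail135Bin5Part1
import Vale.Agent.P237.Quant.TailUniformData.negTail135Bin5Part2
import Vale.Agent.P237.Quant.TailUniformData.negTail135Bin5Part3
import Vale.Agent.P237.Quant.TailUniformData.negTail135Bin5Part4

/-!
A checked calibration on a range of dimensions for the negative side, bin 5 of the table from 135.
-/

namespace Vale.Agent.P237.Quant.TailUniform

/-- The calibration. -/
noncomputable def negTail135Bin5 : Cfg := negTail135Bin5Base.withIvals (negTail135Bin5Part0 ++ negTail135Bin5Part1 ++ negTail135Bin5Part2 ++ negTail135Bin5Part3 ++ negTail135Bin5Part4)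

theorem negTail135Bin5_check : negTail135Bin5.check = true :=
  check_withIvals (by decide +kernel) (by simp only [List.all_append, Bool.and_eq_true]; exact ⟨⟨⟨⟨negTail135Bin5Part0_check, negTail135Bin5Part1_check⟩, negTail135Bin5Part2_check⟩, negTail135Bin5Part3_check⟩, negTail135Bin5Part4_check⟩)

end Vale.Agent.P237.Quant.TailUniform
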