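import Vale.Agent.P237.Quant.TailUniformLink
import Vale.Agent.P237.Quant.EnvelopeBinData.UniformFrom135
import Vale.Agent.P237.Quant.TailUniformData.negTail135Bin7

/-!
The tail inequality of one bin for the negative side, bin 7 of the table from 135.
-/

namespace Vale.Agent.P237.Quant.TailUniform

/-- The bin at `136 ≤ n` up to `210`. -/
theorem negTail135Bin7_tail {m : ℕ} (hm : (⟨136, 210⟩ : DimRange).Mem (m + 1)) :
    TailBin m (negW m) (2500 / 3417) 0 ((121/100 : ℚ) : ℝ) ((5929/2500 : ℚ) : ℝ) :=
  tailBin_neg negTail135Bin7_check envUniformFrom135_check (by decide +kernel) (mem_of_rangeIn (by decide +kernel) hm)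

end Vale.Agent.P237.Quant.TailUniform
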