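import Vale.Agent.P237.Quant.TailUniformData
import Vale.Agent.P237.Quant.TailUniformData.negTail210Bin6Part0
import Vale.Agent.P237.Quant.TailUniformData.negTail210Bin6Part1
import Vale.Agent.P237.Quant.TailUniformData.negTail210Bin6Part2
import Vale.Agent.P237.Quant.TailUniformData.negTail210Bin6Part3
import Vale.Agent.P237.Quant.TailUniformData.negTail210Bin6Part4
import Vale.Agent.P237.Quant.TailUniformData.negTail210Bin6Part5
import Vale.Agent.P237.Quant.TailUniformData.negTail210Bin6Part6
import Vale.Agent.P237.Quant.TailUniformData.negTail210Bin6Part7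
import Vale.Agent.P237.Quant.TailUniformData.negTail210Bin6Part8
import Vale.Agent.P237.Quant.TailUniformData.negTail210Bin6Part9
import Vale.Agent.P237.Quant.TailUniformData.negTail210Bin6Part10

/-!
A checked calibration on a range of dimensions for the negative side, bin 6 of the table from 210.
-/

namespace Vale.Agent.P237.Quant.TailUniform

/-- The calibration. -/
noncomputable def negTail210Bin6 : Cfg := negTail210Bin6Base.withIvals (negTail210Bin6Part0 ++ negTail210Bin6Part1 ++ negTail210Bin6Part2 ++ negTail210Bin6Part3 ++ negTail210Bin6Part4 ++ negTail210Bin6Part5 ++ negTail210Bin6Part6 ++ negTail210Bin6Part7 ++ negTail210Bin6Part8 ++ negTail210Bin6Part9 ++ negTail210Bin6Part10)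

theorem negTail210Bin6_check : negTail210Bin6.check = true :=
  check_withIvals (by decide +kernel) (by simp only [List.all_append, Bool.and_eq_true]; exact ⟨⟨⟨⟨⟨⟨⟨⟨⟨⟨negTail210Bin6Part0_check, negTail210Bin6Part1_check⟩, negTail210Bin6Part2_check⟩, negTail210Bin6Part3_check⟩, negTail210Bin6Part4_check⟩, negTail210Bin6Part5_check⟩, negTail210Bin6Part6_check⟩, negTail210Bin6Part7_check⟩, negTail210Bin6Part8_check⟩, negTail210Bin6Part9_check⟩, negTail210Bin6Part10_check⟩)

end Vale.Agent.P237.Quant.TailUniform
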