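import Vale.Agent.P237.Quant.TailUniformData
import Vale.Agent.P237.Quant.TailUniformData.negTail450Bin6Part0
import Vale.Agent.P237.Quant.TailUniformData.negTail450Bin6Part1
import Vale.Agent.P237.Quant.TailUniformData.negTail450Bin6Part2
import Vale.Agent.P237.Quant.TailUniformData.negTail450Bin6Part3
import Vale.Agent.P237.Quant.TailUniformData.negTail450Bin6Part4
import Vale.Agent.P237.Quant.TailUniformData.negTail450Bin6Part5
import Vale.Agent.P237.Quant.TailUniformData.negTail450Bin6Part6
import Vale.Agent.P237.Quant.TailUniformData.negTail450Bin6Part7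
import Vale.Agent.P237.Quant.TailUniformData.negTail450Bin6Part8

/-!
A checked calibration on a range of dimensions for the negative side, bin 6 of the table from 450.
-/

namespace Vale.Agent.P237.Quant.TailUniform

/-- The calibration. -/
noncomputable def negTail450Bin6 : Cfg := negTail450Bin6Base.withIvals (negTail450Bin6Part0 ++ negTail450Bin6Part1 ++ negTail450Bin6Part2 ++ negTail450Bin6Part3 ++ negTail450Bin6Part4 ++ negTail450Bin6Part5 ++ negTail450Bin6Part6 ++ negTail450Bin6Part7 ++ negTail450Bin6Part8)

theorem negTail450Bin6_check : negTail450Bin6.check = true :=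
  check_withIvals (by decide +kernel) (by simp only [List.all_append, Bool.and_eq_true]; exact ⟨⟨⟨⟨⟨⟨⟨⟨negTail450Bin6Part0_check, negTail450Bin6Part1_check⟩, negTail450Bin6Part2_check⟩, negTail450Bin6Part3_check⟩, negTail450Bin6Part4_check⟩, negTail450Bin6Part5_check⟩, negTail450Bin6Part6_check⟩, negTail450Bin6Part7_check⟩, negTail450Bin6Part8_check⟩)

end Vale.Agent.P237.Quant.TailUniform
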