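import Vale.Agent.P237.Quant.TailUniformLink
import Vale.Agent.P237.Quant.EnvelopeBinData.UniformFrom450
import Vale.Agent.P237.Quant.TailUniformData.negTail450Bin6

/-!
The tail inequality of one bin for the negative side, bin 6 of the table from 450.
-/

namespace Vale.Agent.P237.Quant.TailUniform

/-- The bin at `451 ≤ n`. -/
theorem negTail450Bin6_tail {m : ℕ} (hm : (⟨451, 0⟩ : DimRange).Mem (m + 1)) :
    TailBin m (negW m) (2500 / 3417) 0 ((277/250 : ℚ) : ℝ) ((121/100 : ℚ) : ℝ) :=
  tailBin_neg negTail450Bin6_check envUniformFrom450_check (by decide +kernel) (mem_of_rangeIn (by decide +kernel) hm)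

end Vale.Agent.P237.Quant.TailUniform
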