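import Vale.Agent.P237.Quant.TailUniformData
import Vale.Agent.P237.Quant.TailUniformData.negTail450Bin7Part0
import Vale.Agent.P237.Quant.TailUniformData.negTail450Bin7Part1
import Vale.Agent.P237.Quant.TailUniformData.negTail450Bin7Part2
import Vale.Agent.P237.Quant.TailUniformData.negTail450Bin7Part3
import Vale.Agent.P237.Quant.TailUniformData.negTail450Bin7Part4
import Vale.Agent.P237.Quant.TailUniformData.negTail450Bin7Part5
import Vale.Agent.P237.Quant.TailUniformData.negTail450Bin7Part6
import Vale.Agent.P237.Quant.TailUniformData.negTail450Bin7Part7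

/-!
A checked calibration on a range of dimensions for the negative side, bin 7 of the table from 450.
-/

namespace Vale.Agent.P237.Quant.TailUniform

/-- The calibration. -/
noncomputable def negTail450Bin7 : Cfg := negTail450Bin7Base.withIvals (negTail450Bin7Part0 ++ negTail450Bin7Part1 ++ negTail450Bin7Part2 ++ negTail450Bin7Part3 ++ negTail450Bin7Part4 ++ negTail450Bin7Part5 ++ negTail450Bin7Part6 ++ negTail450Bin7Part7)

theorem negTail450Bin7_check : negTail450Bin7.check = true :=
  check_withIvals (by decide +kernel) (by simp only [List.all_append, Bool.and_eq_true]; exact ⟨⟨⟨⟨⟨⟨⟨negTail450Bin7Part0_check, negTail450Bin7Part1_check⟩, negTail450Bin7Part2_check⟩, negTail450Bin7Part3_check⟩, negTail450Bin7Part4_check⟩, negTail450Bin7Part5_check⟩, negTail450Bin7Part6_check⟩, negTail450Bin7Part7_check⟩)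

end Vale.Agent.P237.Quant.TailUniform
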