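import Vale.Agent.P237.Quant.TailUniformData
import Vale.Agent.P237.Quant.TailUniformData.posTail100Bin1R100Part0
import Vale.Agent.P237.Quant.TailUniformData.posTail100Bin1R100Part1
import Vale.Agent.P237.Quant.TailUniformData.posTail100Bin1R100Part2
import Vale.Agent.P237.Quant.TailUniformData.posTail100Bin1R100Part3
import Vale.Agent.P237.Quant.TailUniformData.posTail100Bin1R100Part4
import Vale.Agent.P237.Quant.TailUniformData.posTail100Bin1R100Part5
import Vale.Agent.P237.Quant.TailUniformData.posTail100Bin1R100Part6
import Vale.Agent.P237.Quant.TailUniformData.posTail100Bin1R100Part7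
import Vale.Agent.P237.Quant.TailUniformData.posTail100Bin1R100Part8
import Vale.Agent.P237.Quant.TailUniformData.posTail100Bin1R100Part9
import Vale.Agent.P237.Quant.TailUniformData.posTail100Bin1R100Part10
import Vale.Agent.P237.Quant.TailUniformData.posTail100Bin1R100Part11
import Vale.Agent.P237.Quant.TailUniformData.posTail100Bin1R100Part12
import Vale.Agent.P237.Quant.TailUniformData.posTail100Bin1R100Part13
import Vale.Agent.P237.Quant.TailUniformData.posTail100Bin1R100Part14
import Vale.Agent.P237.Quant.TailUniformData.posTail100Bin1R100Part15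
import Vale.Agent.P237.Quant.TailUniformData.posTail100Bin1R100Part16
import Vale.Agent.P237.Quant.TailUniformData.posTail100Bin1R100Part17
import Vale.Agent.P237.Quant.TailUniformData.posTail100Bin1R100Part18
import Vale.Agent.P237.Quant.TailUniformData.posTail100Bin1R100Part19
import Vale.Agent.P237.Quant.TailUniformData.posTail100Bin1R100Part20
import Vale.Agent.P237.Quant.TailUniformData.posTail100Bin1R100Part21
import Vale.Agent.P237.Quant.TailUniformData.posTail100Bin1R100Part22
import Vale.Agent.P237.Quant.TailUniformData.posTail100Bin1R100Part23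
import Vale.Agent.P237.Quant.TailUniformData.posTail100Bin1R100Part24
import Vale.Agent.P237.Quant.TailUniformData.posTail100Bin1R100Part25
import Vale.Agent.P237.Quant.TailUniformData.posTail100Bin1R100Part26
import Vale.Agent.P237.Quant.TailUniformData.posTail100Bin1R100Part27
import Vale.Agent.P237.Quant.TailUniformData.posTail100Bin1R100Part28
import Vale.Agent.P237.Quant.TailUniformData.posTail100Bin1R100Part29
import Vale.Agent.P237.Quant.TailUniformData.posTail100Bin1R100Part30
import Vale.Agent.P237.Quant.TailUniformData.posTail100Bin1R100Part31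
import Vale.Agent.P237.Quant.TailUniformData.posTail100Bin1R100Part32
import Vale.Agent.P237.Quant.TailUniformData.posTail100Bin1R100Part33

/-!
A checked calibration on a range of dimensions for the positive side, bin 1 of the row from 100, dimensions 100 to 108.
-/

namespace Vale.Agent.P237.Quant.TailUniform

/-- The calibration. -/
noncomputable def posTail100Bin1R100 : Cfg := posTail100Bin1R100Base.withIvals (posTail100Bin1R100Part0 ++ posTail100Bin1R100Part1 ++ posTail100Bin1R100Part2 ++ posTail100Bin1R100Part3 ++ posTail100Bin1R100Part4 ++ posTail100Bin1R100Part5 ++ posTail100Bin1R100Part6 ++ posTail100Bin1R100Part7 ++ posTail100Bin1R100Part8 ++ posTail100Bin1R100Part9 ++ posTail100Bin1R100Part10 ++ posTail100Bin1R100Part11 ++ posTail100Bin1R100Part12 ++ posTail100Bin1R100Part13 ++ posTail100Bin1R100Part14 ++ posTail100Bin1R100Part15 ++ posTail100Bin1R100Part16 ++ posTail100Bin1R100Part17 ++ posTail100Bin1R100Part18 ++ posTail100Bin1R100Part19 ++ posTail100Bin1R100Part20 ++ posTail100Bin1R100Part21 ++ posTail100Bin1R100Part22 ++ posTail100Bin1R100Part23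 ++ posTail100Bin1R100Part24 ++ posTail100Bin1R100Part25 ++ posTail100Bin1R100Part26 ++ posTail100Bin1R100Part27 ++ posTail100Bin1R100Part28 ++ posTail100Bin1R100Part29 ++ posTail100Bin1R100Part30 ++ posTail100Bin1R100Part31 ++ posTail100Bin1R100Part32 ++ posTail100Bin1R100Part33)

theorem posTail100Bin1R100_check : posTail100Bin1R100.check = true :=
  check_withIvals (by decide +kernel) (by simp only [List.all_append, Bool.and_eq_true]; exact ⟨⟨⟨⟨⟨⟨⟨⟨⟨⟨⟨⟨⟨⟨⟨⟨⟨⟨⟨⟨⟨⟨⟨⟨⟨⟨⟨⟨⟨⟨⟨⟨⟨posTail100Bin1R100Part0_check, posTail100Bin1R100Part1_check⟩, posTail100Bin1R100Part2_check⟩, posTail100Bin1R100Part3_check⟩, posTail100Bin1R100Part4_check⟩, posTail100Bin1R100Part5_check⟩, posTail100Bin1R100Part6_check⟩, posTail100Bin1R100Part7_check⟩, posTail100Bin1R100Part8_check⟩, posTail100Bin1R100Part9_check⟩, posTail100Bin1R100Part10_check⟩, posTail100Bin1R100Part11_check⟩, posTail100Bin1R100Part12_check⟩, posTail100Bin1R100Part13_check⟩, posTail100Bin1R100Part14_check⟩, posTail100Bin1R100Part15_check⟩, posTail100Bin1R100Part16_check⟩, posTail100Bin1R100Part17_check⟩,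 posTail100Bin1R100Part18_check⟩, posTail100Bin1R100Part19_check⟩, posTail100Bin1R100Part20_check⟩, posTail100Bin1R100Part21_check⟩, posTail100Bin1R100Part22_check⟩, posTail100Bin1R100Part23_check⟩, posTail100Bin1R100Part24_check⟩, posTail100Bin1R100Part25_check⟩, posTail100Bin1R100Part26_check⟩, posTail100Bin1R100Part27_check⟩, posTail100Bin1R100Part28_check⟩, posTail100Bin1R100Part29_check⟩, posTail100Bin1R100Part30_check⟩, posTail100Bin1R100Part31_check⟩, posTail100Bin1R100Part32_check⟩, posTail100Bin1R100Part33_check⟩)

end Vale.Agent.P237.Quant.TailUniform
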