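import Vale.Agent.P237.Quant.TailUniformData
import Vale.Agent.P237.Quant.TailUniformData.posTail100Bin1R109Part0
import Vale.Agent.P237.Quant.TailUniformData.posTail100Bin1R109Part1
import Vale.Agent.P237.Quant.TailUniformData.posTail100Bin1R109Part2
import Vale.Agent.P237.Quant.TailUniformData.posTail100Bin1R109Part3
import Vale.Agent.P237.Quant.TailUniformData.posTail100Bin1R109Part4
import Vale.Agent.P237.Quant.TailUniformData.posTail100Bin1R109Part5
import Vale.Agent.P237.Quant.TailUniformData.posTail100Bin1R109Part6
import Vale.Agent.P237.Quant.TailUniformData.posTail100Bin1R109Part7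
import Vale.Agent.P237.Quant.TailUniformData.posTail100Bin1R109Part8
import Vale.Agent.P237.Quant.TailUniformData.posTail100Bin1R109Part9
import Vale.Agent.P237.Quant.TailUniformData.posTail100Bin1R109Part10
import Vale.Agent.P237.Quant.TailUniformData.posTail100Bin1R109Part11
import Vale.Agent.P237.Quant.TailUniformData.posTail100Bin1R109Part12
import Vale.Agent.P237.Quant.TailUniformData.posTail100Bin1R109Part13
import Vale.Agent.P237.Quant.TailUniformData.posTail100Bin1R109Part14
import Vale.Agent.P237.Quant.TailUniformData.posTail100Bin1R109Part15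
import Vale.Agent.P237.Quant.TailUniformData.posTail100Bin1R109Part16
import Vale.Agent.P237.Quant.TailUniformData.posTail100Bin1R109Part17
import Vale.Agent.P237.Quant.TailUniformData.posTail100Bin1R109Part18
import Vale.Agent.P237.Quant.TailUniformData.posTail100Bin1R109Part19
import Vale.Agent.P237.Quant.TailUniformData.posTail100Bin1R109Part20
import Vale.Agent.P237.Quant.TailUniformData.posTail100Bin1R109Part21
import Vale.Agent.P237.Quant.TailUniformData.posTail100Bin1R109Part22
import Vale.Agent.P237.Quant.TailUniformData.posTail100Bin1R109Part23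
import Vale.Agent.P237.Quant.TailUniformData.posTail100Bin1R109Part24

/-!
A checked calibration on a range of dimensions for the positive side, bin 1 of the row from 100, dimensions 109 to 119.
-/

namespace Vale.Agent.P237.Quant.TailUniform

/-- The calibration. -/
noncomputable def posTail100Bin1R109 : Cfg := posTail100Bin1R109Base.withIvals (posTail100Bin1R109Part0 ++ posTail100Bin1R109Part1 ++ posTail100Bin1R109Part2 ++ posTail100Bin1R109Part3 ++ posTail100Bin1R109Part4 ++ posTail100Bin1R109Part5 ++ posTail100Bin1R109Part6 ++ posTail100Bin1R109Part7 ++ posTail100Bin1R109Part8 ++ posTail100Bin1R109Part9 ++ posTail100Bin1R109Part10 ++ posTail100Bin1R109Part11 ++ posTail100Bin1R109Part12 ++ posTail100Bin1R109Part13 ++ posTail100Bin1R109Part14 ++ posTail100Bin1R109Part15 ++ posTail100Bin1R109Part16 ++ posTail100Bin1R109Part17 ++ posTail100Bin1R109Part18 ++ posTail100Bin1R109Part19 ++ posTail100Bin1R109Part20 ++ posTail100Bin1R109Part21 ++ posTail100Bin1R109Part22 ++ posTail100Bin1R109Part23 ++ posTail100Bin1R109Part24)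

theorem posTail100Bin1R109_check : posTail100Bin1R109.check = true :=
  check_withIvals (by decide +kernel) (by simp only [List.all_append, Bool.and_eq_true]; exact ⟨⟨⟨⟨⟨⟨⟨⟨⟨⟨⟨⟨⟨⟨⟨⟨⟨⟨⟨⟨⟨⟨⟨⟨posTail100Bin1R109Part0_check, posTail100Bin1R109Part1_check⟩, posTail100Bin1R109Part2_check⟩, posTail100Bin1R109Part3_check⟩, posTail100Bin1R109Part4_check⟩, posTail100Bin1R109Part5_check⟩, posTail100Bin1R109Part6_check⟩, posTail100Bin1R109Part7_check⟩, posTail100Bin1R109Part8_check⟩, posTail100Bin1R109Part9_check⟩, posTail100Bin1R109Part10_check⟩, posTail100Bin1R109Part11_check⟩, posTail100Bin1R109Part12_check⟩, posTail100Bin1R109Part13_check⟩, posTail100Bin1R109Part14_check⟩, posTail100Bin1R109Part15_check⟩, posTail100Bin1R109Part16_check⟩, posTail100Bin1R109Part17_check⟩, posTail100Bin1R109Part18_check⟩, posTail100Bin1R109Part19_check⟩, posTail100Bin1R109Part20_check⟩, posTail100Bin1R109Part21_check⟩, posTail100Bin1R109Part22_check⟩, posTail100Bin1R109Part23_check⟩, posTail100Bin1R109Part24_check⟩)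

end Vale.Agent.P237.Quant.TailUniform
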