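import Vale.Agent.P237.Quant.TailUniformData
import Vale.Agent.P237.Quant.TailUniformData.posTail100Bin1R120Part0
import Vale.Agent.P237.Quant.TailUniformData.posTail100Bin1R120Part1
import Vale.Agent.P237.Quant.TailUniformData.posTail100Bin1R120Part2
import Vale.Agent.P237.Quant.TailUniformData.posTail100Bin1R120Part3
import Vale.Agent.P237.Quant.TailUniformData.posTail100Bin1R120Part4
import Vale.Agent.P237.Quant.TailUniformData.posTail100Bin1R120Part5
import Vale.Agent.P237.Quant.TailUniformData.posTail100Bin1R120Part6
import Vale.Agent.P237.Quant.TailUniformData.posTail100Bin1R120Part7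
import Vale.Agent.P237.Quant.TailUniformData.posTail100Bin1R120Part8
import Vale.Agent.P237.Quant.TailUniformData.posTail100Bin1R120Part9
import Vale.Agent.P237.Quant.TailUniformData.posTail100Bin1R120Part10
import Vale.Agent.P237.Quant.TailUniformData.posTail100Bin1R120Part11
import Vale.Agent.P237.Quant.TailUniformData.posTail100Bin1R120Part12
import Vale.Agent.P237.Quant.TailUniformData.posTail100Bin1R120Part13
import Vale.Agent.P237.Quant.TailUniformData.posTail100Bin1R120Part14
import Vale.Agent.P237.Quant.TailUniformData.posTail100Bin1R120Part15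
import Vale.Agent.P237.Quant.TailUniformData.posTail100Bin1R120Part16
import Vale.Agent.P237.Quant.TailUniformData.posTail100Bin1R120Part17
import Vale.Agent.P237.Quant.TailUniformData.posTail100Bin1R120Part18
import Vale.Agent.P237.Quant.TailUniformData.posTail100Bin1R120Part19

/-!
A checked calibration on a range of dimensions for the positive side, bin 1 of the row from 100, dimensions 120 to 135.
-/

namespace Vale.Agent.P237.Quant.TailUniform

/-- The calibration. -/
noncomputable def posTail100Bin1R120 : Cfg := posTail100Bin1R120Base.withIvals (posTail100Bin1R120Part0 ++ posTail100Bin1R120Part1 ++ posTail100Bin1R120Part2 ++ posTail100Bin1R120Part3 ++ posTail100Bin1R120Part4 ++ posTail100Bin1R120Part5 ++ posTail100Bin1R120Part6 ++ posTail100Bin1R120Part7 ++ posTail100Bin1R120Part8 ++ posTail100Bin1R120Part9 ++ posTail100Bin1R120Part10 ++ posTail100Bin1R120Part11 ++ posTail100Bin1R120Part12 ++ posTail100Bin1R120Part13 ++ posTail100Bin1R120Part14 ++ posTail100Bin1R120Part15 ++ posTail100Bin1R120Part16 ++ posTail100Bin1R120Part17 ++ posTail100Bin1R120Part18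 ++ posTail100Bin1R120Part19)

theorem posTail100Bin1R120_check : posTail100Bin1R120.check = true :=
  check_withIvals (by decide +kernel) (by simp only [List.all_append, Bool.and_eq_true]; exact ⟨⟨⟨⟨⟨⟨⟨⟨⟨⟨⟨⟨⟨⟨⟨⟨⟨⟨⟨posTail100Bin1R120Part0_check, posTail100Bin1R120Part1_check⟩, posTail100Bin1R120Part2_check⟩, posTail100Bin1R120Part3_check⟩, posTail100Bin1R120Part4_check⟩, posTail100Bin1R120Part5_check⟩, posTail100Bin1R120Part6_check⟩, posTail100Bin1R120Part7_check⟩, posTail100Bin1R120Part8_check⟩, posTail100Bin1R120Part9_check⟩, posTail100Bin1R120Part10_check⟩, posTail100Bin1R120Part11_check⟩, posTail100Bin1R120Part12_check⟩, posTail100Bin1R120Part13_check⟩, posTail100Bin1R120Part14_check⟩, posTail100Bin1R120Part15_check⟩, posTail100Bin1R120Part16_check⟩, posTail100Bin1R120Part17_check⟩, posTail100Bin1R120Part18_check⟩, posTail100Bin1R120Part19_check⟩)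

end Vale.Agent.P237.Quant.TailUniform
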