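import Vale.Agent.P237.Quant.TailUniformLink
import Vale.Agent.P237.Quant.PosRowsMid
import Vale.Agent.P237.Quant.EnvelopeBinData.UniformFrom100
import Vale.Agent.P237.Quant.TailUniformData.posTail100Bin1R120

/-!
The tail inequality of one bin for the positive side, bin 1 of the row from 100, dimensions 120 to 135.
-/

namespace Vale.Agent.P237.Quant.TailUniform

/-- The bin at `120 ≤ n` up to `135`. -/
theorem posTail100Bin1R120_tail {m : ℕ} (hm : (⟨120, 135⟩ : DimRange).Mem (m + 1)) :
    TailBin m (posRow100.W m) (1 + (posRow100.mu : ℝ) * posRow100.e2) posRow100.eta ((253/250 : ℚ) : ℝ) ((257/250 : ℚ) : ℝ) :=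
  tailBin_pos posTail100Bin1R120_check envUniformFrom100_check (by decide +kernel) (mem_of_rangeIn (by decide +kernel) hm)

end Vale.Agent.P237.Quant.TailUniform
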