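import Vale.Agent.P237.Quant.TailUniformData
import Vale.Agent.P237.Quant.TailUniformData.posTail100Bin2R115Part0
import Vale.Agent.P237.Quant.TailUniformData.posTail100Bin2R115Part1
import Vale.Agent.P237.Quant.TailUniformData.posTail100Bin2R115Part2
import Vale.Agent.P237.Quant.TailUniformData.posTail100Bin2R115Part3
import Vale.Agent.P237.Quant.TailUniformData.posTail100Bin2R115Part4
import Vale.Agent.P237.Quant.TailUniformData.posTail100Bin2R115Part5
import Vale.Agent.P237.Quant.TailUniformData.posTail100Bin2R115Part6
import Vale.Agent.P237.Quant.TailUniformData.posTail100Bin2R115Part7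
import Vale.Agent.P237.Quant.TailUniformData.posTail100Bin2R115Part8
import Vale.Agent.P237.Quant.TailUniformData.posTail100Bin2R115Part9
import Vale.Agent.P237.Quant.TailUniformData.posTail100Bin2R115Part10
import Vale.Agent.P237.Quant.TailUniformData.posTail100Bin2R115Part11
import Vale.Agent.P237.Quant.TailUniformData.posTail100Bin2R115Part12
import Vale.Agent.P237.Quant.TailUniformData.posTail100Bin2R115Part13
import Vale.Agent.P237.Quant.TailUniformData.posTail100Bin2R115Part14
import Vale.Agent.P237.Quant.TailUniformData.posTail100Bin2R115Part15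
import Vale.Agent.P237.Quant.TailUniformData.posTail100Bin2R115Part16
import Vale.Agent.P237.Quant.TailUniformData.posTail100Bin2R115Part17
import Vale.Agent.P237.Quant.TailUniformData.posTail100Bin2R115Part18
import Vale.Agent.P237.Quant.TailUniformData.posTail100Bin2R115Part19
import Vale.Agent.P237.Quant.TailUniformData.posTail100Bin2R115Part20
import Vale.Agent.P237.Quant.TailUniformData.posTail100Bin2R115Part21

/-!
A checked calibration on a range of dimensions for the positive side, bin 2 of the row from 100, dimensions 115 to 135.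
-/

namespace Vale.Agent.P237.Quant.TailUniform

/-- The calibration. -/
noncomputable def posTail100Bin2R115 : Cfg := posTail100Bin2R115Base.withIvals (posTail100Bin2R115Part0 ++ posTail100Bin2R115Part1 ++ posTail100Bin2R115Part2 ++ posTail100Bin2R115Part3 ++ posTail100Bin2R115Part4 ++ posTail100Bin2R115Part5 ++ posTail100Bin2R115Part6 ++ posTail100Bin2R115Part7 ++ posTail100Bin2R115Part8 ++ posTail100Bin2R115Part9 ++ posTail100Bin2R115Part10 ++ posTail100Bin2R115Part11 ++ posTail100Bin2R115Part12 ++ posTail100Bin2R115Part13 ++ posTail100Bin2R115Part14 ++ posTail100Bin2R115Part15 ++ posTail100Bin2R115Part16 ++ posTail100Bin2R115Part17 ++ posTail100Bin2R115Part18 ++ posTail100Bin2R115Part19 ++ posTail100Bin2R115Part20 ++ posTail100Bin2R115Part21)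

theorem posTail100Bin2R115_check : posTail100Bin2R115.check = true :=
  check_withIvals (by decide +kernel) (by simp only [List.all_append, Bool.and_eq_true]; exact ⟨⟨⟨⟨⟨⟨⟨⟨⟨⟨⟨⟨⟨⟨⟨⟨⟨⟨⟨⟨⟨posTail100Bin2R115Part0_check, posTail100Bin2R115Part1_check⟩, posTail100Bin2R115Part2_check⟩, posTail100Bin2R115Part3_check⟩, posTail100Bin2R115Part4_check⟩, posTail100Bin2R115Part5_check⟩, posTail100Bin2R115Part6_check⟩, posTail100Bin2R115Part7_check⟩, posTail100Bin2R115Part8_check⟩, posTail100Bin2R115Part9_check⟩, posTail100Bin2R115Part10_check⟩, posTail100Bin2R115Part11_check⟩, posTail100Bin2R115Part12_check⟩, posTail100Bin2R115Part13_check⟩, posTail100Bin2R115Part14_check⟩, posTail100Bin2R115Part15_check⟩, posTail100Bin2R115Part16_check⟩, posTail100Bin2R115Part17_check⟩, posTail100Bin2R115Part18_check⟩, posTail100Bin2R115Part19_check⟩, posTail100Bin2R115Part20_check⟩, posTail100Bin2R115Part21_check⟩)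

end Vale.Agent.P237.Quant.TailUniform
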