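import Vale.Agent.P237.Quant.TailUniformData
import Vale.Agent.P237.Quant.TailUniformData.posTail100Bin4Part0
import Vale.Agent.P237.Quant.TailUniformData.posTail100Bin4Part1
import Vale.Agent.P237.Quant.TailUniformData.posTail100Bin4Part2
import Vale.Agent.P237.Quant.TailUniformData.posTail100Bin4Part3
import Vale.Agent.P237.Quant.TailUniformData.posTail100Bin4Part4
import Vale.Agent.P237.Quant.TailUniformData.posTail100Bin4Part5
import Vale.Agent.P237.Quant.TailUniformData.posTail100Bin4Part6
import Vale.Agent.P237.Quant.TailUniformData.posTail100Bin4Part7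
import Vale.Agent.P237.Quant.TailUniformData.posTail100Bin4Part8
import Vale.Agent.P237.Quant.TailUniformData.posTail100Bin4Part9
import Vale.Agent.P237.Quant.TailUniformData.posTail100Bin4Part10
import Vale.Agent.P237.Quant.TailUniformData.posTail100Bin4Part11
import Vale.Agent.P237.Quant.TailUniformData.posTail100Bin4Part12
import Vale.Agent.P237.Quant.TailUniformData.posTail100Bin4Part13
import Vale.Agent.P237.Quant.TailUniformData.posTail100Bin4Part14
import Vale.Agent.P237.Quant.TailUniformData.posTail100Bin4Part15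
import Vale.Agent.P237.Quant.TailUniformData.posTail100Bin4Part16
import Vale.Agent.P237.Quant.TailUniformData.posTail100Bin4Part17
import Vale.Agent.P237.Quant.TailUniformData.posTail100Bin4Part18
import Vale.Agent.P237.Quant.TailUniformData.posTail100Bin4Part19
import Vale.Agent.P237.Quant.TailUniformData.posTail100Bin4Part20
import Vale.Agent.P237.Quant.TailUniformData.posTail100Bin4Part21
import Vale.Agent.P237.Quant.TailUniformData.posTail100Bin4Part22
import Vale.Agent.P237.Quant.TailUniformData.posTail100Bin4Part23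
import Vale.Agent.P237.Quant.TailUniformData.posTail100Bin4Part24
import Vale.Agent.P237.Quant.TailUniformData.posTail100Bin4Part25
import Vale.Agent.P237.Quant.TailUniformData.posTail100Bin4Part26
import Vale.Agent.P237.Quant.TailUniformData.posTail100Bin4Part27
import Vale.Agent.P237.Quant.TailUniformData.posTail100Bin4Part28
import Vale.Agent.P237.Quant.TailUniformData.posTail100Bin4Part29
import Vale.Agent.P237.Quant.TailUniformData.posTail100Bin4Part30
import Vale.Agent.P237.Quant.TailUniformData.posTail100Bin4Part31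
import Vale.Agent.P237.Quant.TailUniformData.posTail100Bin4Part32
import Vale.Agent.P237.Quant.TailUniformData.posTail100Bin4Part33
import Vale.Agent.P237.Quant.TailUniformData.posTail100Bin4Part34
import Vale.Agent.P237.Quant.TailUniformData.posTail100Bin4Part35
import Vale.Agent.P237.Quant.TailUniformData.posTail100Bin4Part36
import Vale.Agent.P237.Quant.TailUniformData.posTail100Bin4Part37
import Vale.Agent.P237.Quant.TailUniformData.posTail100Bin4Part38

/-!
A checked calibration on a range of dimensions for the positive side, bin 4 of the row from 100 on 100..104.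
-/

namespace Vale.Agent.P237.Quant.TailUniform

/-- The calibration. -/
noncomputable def posTail100Bin4 : Cfg := posTail100Bin4Base.withIvals (posTail100Bin4Part0 ++ posTail100Bin4Part1 ++ posTail100Bin4Part2 ++ posTail100Bin4Part3 ++ posTail100Bin4Part4 ++ posTail100Bin4Part5 ++ posTail100Bin4Part6 ++ posTail100Bin4Part7 ++ posTail100Bin4Part8 ++ posTail100Bin4Part9 ++ posTail100Bin4Part10 ++ posTail100Bin4Part11 ++ posTail100Bin4Part12 ++ posTail100Bin4Part13 ++ posTail100Bin4Part14 ++ posTail100Bin4Part15 ++ posTail100Bin4Part16 ++ posTail100Bin4Part17 ++ posTail100Bin4Part18 ++ posTail100Bin4Part19 ++ posTail100Bin4Part20 ++ posTail100Bin4Part21 ++ posTail100Bin4Part22 ++ posTail100Bin4Part23 ++ posTail100Bin4Part24 ++ posTail100Bin4Part25 ++ posTail100Bin4Part26 ++ posTail100Bin4Part27 ++ posTail100Bin4Part28 ++ posTail100Bin4Part29 ++ posTail100Bin4Part30 ++ posTail100Bin4Part31 ++ posTail100Bin4Part32 ++ posTail100Bin4Part33 ++ posTail100Bin4Part34 ++ posTail100Bin4Part35 ++ posTail100Bin4Part36 ++ posTail100Bin4Part37 ++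 posTail100Bin4Part38)

theorem posTail100Bin4_check : posTail100Bin4.check = true :=
  check_withIvals (by decide +kernel) (by simp only [List.all_append, Bool.and_eq_true]; exact ⟨⟨⟨⟨⟨⟨⟨⟨⟨⟨⟨⟨⟨⟨⟨⟨⟨⟨⟨⟨⟨⟨⟨⟨⟨⟨⟨⟨⟨⟨⟨⟨⟨⟨⟨⟨⟨⟨posTail100Bin4Part0_check, posTail100Bin4Part1_check⟩, posTail100Bin4Part2_check⟩, posTail100Bin4Part3_check⟩, posTail100Bin4Part4_check⟩, posTail100Bin4Part5_check⟩, posTail100Bin4Part6_check⟩, posTail100Bin4Part7_check⟩, posTail100Bin4Part8_check⟩, posTail100Bin4Part9_check⟩, posTail100Bin4Part10_check⟩, posTail100Bin4Part11_check⟩, posTail100Bin4Part12_check⟩, posTail100Bin4Part13_check⟩, posTail100Bin4Part14_check⟩, posTail100Bin4Part15_check⟩, posTail100Bin4Part16_check⟩, posTail100Bin4Part17_check⟩, posTail100Bin4Part18_check⟩, posTail100Bin4Part19_check⟩, posTail100Bin4Part20_check⟩, posTail100Bin4Part21_check⟩, posTail100Bin4Part22_check⟩, posTail100Bin4Part23_check⟩, posTail100Bin4Part24_check⟩, posTail100Bin4Part25_check⟩, posTail100Bin4Part26_check⟩, posTail100Bin4Part27_check⟩, posTail100Bin4Part28_check⟩,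 posTail100Bin4Part29_check⟩, posTail100Bin4Part30_check⟩, posTail100Bin4Part31_check⟩, posTail100Bin4Part32_check⟩, posTail100Bin4Part33_check⟩, posTail100Bin4Part34_check⟩, posTail100Bin4Part35_check⟩, posTail100Bin4Part36_check⟩, posTail100Bin4Part37_check⟩, posTail100Bin4Part38_check⟩)

end Vale.Agent.P237.Quant.TailUniform
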