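import Vale.Agent.P237.Quant.TailUniformData
import Vale.Agent.P237.Quant.TailUniformData.posTail105Bin3Part0
import Vale.Agent.P237.Quant.TailUniformData.posTail105Bin3Part1
import Vale.Agent.P237.Quant.TailUniformData.posTail105Bin3Part2
import Vale.Agent.P237.Quant.TailUniformData.posTail105Bin3Part3
import Vale.Agent.P237.Quant.TailUniformData.posTail105Bin3Part4
import Vale.Agent.P237.Quant.TailUniformData.posTail105Bin3Part5
import Vale.Agent.P237.Quant.TailUniformData.posTail105Bin3Part6
import Vale.Agent.P237.Quant.TailUniformData.posTail105Bin3Part7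
import Vale.Agent.P237.Quant.TailUniformData.posTail105Bin3Part8
import Vale.Agent.P237.Quant.TailUniformData.posTail105Bin3Part9
import Vale.Agent.P237.Quant.TailUniformData.posTail105Bin3Part10
import Vale.Agent.P237.Quant.TailUniformData.posTail105Bin3Part11
import Vale.Agent.P237.Quant.TailUniformData.posTail105Bin3Part12
import Vale.Agent.P237.Quant.TailUniformData.posTail105Bin3Part13
import Vale.Agent.P237.Quant.TailUniformData.posTail105Bin3Part14
import Vale.Agent.P237.Quant.TailUniformData.posTail105Bin3Part15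
import Vale.Agent.P237.Quant.TailUniformData.posTail105Bin3Part16
import Vale.Agent.P237.Quant.TailUniformData.posTail105Bin3Part17
import Vale.Agent.P237.Quant.TailUniformData.posTail105Bin3Part18
import Vale.Agent.P237.Quant.TailUniformData.posTail105Bin3Part19
import Vale.Agent.P237.Quant.TailUniformData.posTail105Bin3Part20
import Vale.Agent.P237.Quant.TailUniformData.posTail105Bin3Part21
import Vale.Agent.P237.Quant.TailUniformData.posTail105Bin3Part22
import Vale.Agent.P237.Quant.TailUniformData.posTail105Bin3Part23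
import Vale.Agent.P237.Quant.TailUniformData.posTail105Bin3Part24
import Vale.Agent.P237.Quant.TailUniformData.posTail105Bin3Part25
import Vale.Agent.P237.Quant.TailUniformData.posTail105Bin3Part26
import Vale.Agent.P237.Quant.TailUniformData.posTail105Bin3Part27
import Vale.Agent.P237.Quant.TailUniformData.posTail105Bin3Part28
import Vale.Agent.P237.Quant.TailUniformData.posTail105Bin3Part29
import Vale.Agent.P237.Quant.TailUniformData.posTail105Bin3Part30
import Vale.Agent.P237.Quant.TailUniformData.posTail105Bin3Part31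
import Vale.Agent.P237.Quant.TailUniformData.posTail105Bin3Part32
import Vale.Agent.P237.Quant.TailUniformData.posTail105Bin3Part33
import Vale.Agent.P237.Quant.TailUniformData.posTail105Bin3Part34
import Vale.Agent.P237.Quant.TailUniformData.posTail105Bin3Part35
import Vale.Agent.P237.Quant.TailUniformData.posTail105Bin3Part36
import Vale.Agent.P237.Quant.TailUniformData.posTail105Bin3Part37
import Vale.Agent.P237.Quant.TailUniformData.posTail105Bin3Part38
import Vale.Agent.P237.Quant.TailUniformData.posTail105Bin3Part39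
import Vale.Agent.P237.Quant.TailUniformData.posTail105Bin3Part40
import Vale.Agent.P237.Quant.TailUniformData.posTail105Bin3Part41
import Vale.Agent.P237.Quant.TailUniformData.posTail105Bin3Part42
import Vale.Agent.P237.Quant.TailUniformData.posTail105Bin3Part43
import Vale.Agent.P237.Quant.TailUniformData.posTail105Bin3Part44
import Vale.Agent.P237.Quant.TailUniformData.posTail105Bin3Part45
import Vale.Agent.P237.Quant.TailUniformData.posTail105Bin3Part46
import Vale.Agent.P237.Quant.TailUniformData.posTail105Bin3Part47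
import Vale.Agent.P237.Quant.TailUniformData.posTail105Bin3Part48
import Vale.Agent.P237.Quant.TailUniformData.posTail105Bin3Part49
import Vale.Agent.P237.Quant.TailUniformData.posTail105Bin3Part50

/-!
A checked calibration on a range of dimensions for the positive side, bin 3 of the row from 100 on 105..115.
-/

namespace Vale.Agent.P237.Quant.TailUniform

/-- The calibration. -/
noncomputable def posTail105Bin3 : Cfg := posTail105Bin3Base.withIvals (posTail105Bin3Part0 ++ posTail105Bin3Part1 ++ posTail105Bin3Part2 ++ posTail105Bin3Part3 ++ posTail105Bin3Part4 ++ posTail105Bin3Part5 ++ posTail105Bin3Part6 ++ posTail105Bin3Part7 ++ posTail105Bin3Part8 ++ posTail105Bin3Part9 ++ posTail105Bin3Part10 ++ posTail105Bin3Part11 ++ posTail105Bin3Part12 ++ posTail105Bin3Part13 ++ posTail105Bin3Part14 ++ posTail105Bin3Part15 ++ posTail105Bin3Part16 ++ posTail105Bin3Part17 ++ posTail105Bin3Part18 ++ posTail105Bin3Part19 ++ posTail105Bin3Part20 ++ posTail105Bin3Part21 ++ posTail105Bin3Part22 ++ posTail105Bin3Part23 ++ posTail105Bin3Part24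 ++ posTail105Bin3Part25 ++ posTail105Bin3Part26 ++ posTail105Bin3Part27 ++ posTail105Bin3Part28 ++ posTail105Bin3Part29 ++ posTail105Bin3Part30 ++ posTail105Bin3Part31 ++ posTail105Bin3Part32 ++ posTail105Bin3Part33 ++ posTail105Bin3Part34 ++ posTail105Bin3Part35 ++ posTail105Bin3Part36 ++ posTail105Bin3Part37 ++ posTail105Bin3Part38 ++ posTail105Bin3Part39 ++ posTail105Bin3Part40 ++ posTail105Bin3Part41 ++ posTail105Bin3Part42 ++ posTail105Bin3Part43 ++ posTail105Bin3Part44 ++ posTail105Bin3Part45 ++ posTail105Bin3Part46 ++ posTail105Bin3Part47 ++ posTail105Bin3Part48 ++ posTail105Bin3Part49 ++ posTail105Bin3Part50)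

theorem posTail105Bin3_check : posTail105Bin3.check = true :=
  check_withIvals (by decide +kernel) (by simp only [List.all_append, Bool.and_eq_true]; exact ⟨⟨⟨⟨⟨⟨⟨⟨⟨⟨⟨⟨⟨⟨⟨⟨⟨⟨⟨⟨⟨⟨⟨⟨⟨⟨⟨⟨⟨⟨⟨⟨⟨⟨⟨⟨⟨⟨⟨⟨⟨⟨⟨⟨⟨⟨⟨⟨⟨⟨posTail105Bin3Part0_check, posTail105Bin3Part1_check⟩, posTail105Bin3Part2_check⟩, posTail105Bin3Part3_check⟩, posTail105Bin3Part4_check⟩, posTail105Bin3Part5_check⟩, posTail105Bin3Part6_check⟩, posTail105Bin3Part7_check⟩, posTail105Bin3Part8_check⟩, posTail105Bin3Part9_check⟩, posTail105Bin3Part10_check⟩, posTail105Bin3Part11_check⟩, posTail105Bin3Part12_check⟩, posTail105Bin3Part13_check⟩, posTail105Bin3Part14_check⟩, posTail105Bin3Part15_check⟩, posTail105Bin3Part16_check⟩, posTail105Bin3Part17_check⟩, posTail105Bin3Part18_check⟩, posTail105Bin3Part19_check⟩, posTail105Bin3Part20_check⟩, posTail105Bin3Part21_check⟩, posTail105Bin3Part22_check⟩, posTail105Bin3Part23_check⟩, posTail105Bin3Part24_check⟩, posTail105Bin3Part25_check⟩, posTail105Bin3Part26_check⟩, posTail105Bin3Part27_check⟩, posTail105Bin3Part28_check⟩, posTail105Bin3Part29_check⟩,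 posTail105Bin3Part30_check⟩, posTail105Bin3Part31_check⟩, posTail105Bin3Part32_check⟩, posTail105Bin3Part33_check⟩, posTail105Bin3Part34_check⟩, posTail105Bin3Part35_check⟩, posTail105Bin3Part36_check⟩, posTail105Bin3Part37_check⟩, posTail105Bin3Part38_check⟩, posTail105Bin3Part39_check⟩, posTail105Bin3Part40_check⟩, posTail105Bin3Part41_check⟩, posTail105Bin3Part42_check⟩, posTail105Bin3Part43_check⟩, posTail105Bin3Part44_check⟩, posTail105Bin3Part45_check⟩, posTail105Bin3Part46_check⟩, posTail105Bin3Part47_check⟩, posTail105Bin3Part48_check⟩, posTail105Bin3Part49_check⟩, posTail105Bin3Part50_check⟩)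

end Vale.Agent.P237.Quant.TailUniform
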