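import Vale.Agent.P237.Quant.TailUniformData
import Vale.Agent.P237.Quant.TailUniformData.posTail105Bin4Part0
import Vale.Agent.P237.Quant.TailUniformData.posTail105Bin4Part1
import Vale.Agent.P237.Quant.TailUniformData.posTail105Bin4Part2
import Vale.Agent.P237.Quant.TailUniformData.posTail105Bin4Part3
import Vale.Agent.P237.Quant.TailUniformData.posTail105Bin4Part4
import Vale.Agent.P237.Quant.TailUniformData.posTail105Bin4Part5
import Vale.Agent.P237.Quant.TailUniformData.posTail105Bin4Part6
import Vale.Agent.P237.Quant.TailUniformData.posTail105Bin4Part7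
import Vale.Agent.P237.Quant.TailUniformData.posTail105Bin4Part8
import Vale.Agent.P237.Quant.TailUniformData.posTail105Bin4Part9
import Vale.Agent.P237.Quant.TailUniformData.posTail105Bin4Part10
import Vale.Agent.P237.Quant.TailUniformData.posTail105Bin4Part11
import Vale.Agent.P237.Quant.TailUniformData.posTail105Bin4Part12
import Vale.Agent.P237.Quant.TailUniformData.posTail105Bin4Part13
import Vale.Agent.P237.Quant.TailUniformData.posTail105Bin4Part14
import Vale.Agent.P237.Quant.TailUniformData.posTail105Bin4Part15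
import Vale.Agent.P237.Quant.TailUniformData.posTail105Bin4Part16
import Vale.Agent.P237.Quant.TailUniformData.posTail105Bin4Part17
import Vale.Agent.P237.Quant.TailUniformData.posTail105Bin4Part18
import Vale.Agent.P237.Quant.TailUniformData.posTail105Bin4Part19
import Vale.Agent.P237.Quant.TailUniformData.posTail105Bin4Part20
import Vale.Agent.P237.Quant.TailUniformData.posTail105Bin4Part21
import Vale.Agent.P237.Quant.TailUniformData.posTail105Bin4Part22
import Vale.Agent.P237.Quant.TailUniformData.posTail105Bin4Part23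
import Vale.Agent.P237.Quant.TailUniformData.posTail105Bin4Part24
import Vale.Agent.P237.Quant.TailUniformData.posTail105Bin4Part25
import Vale.Agent.P237.Quant.TailUniformData.posTail105Bin4Part26
import Vale.Agent.P237.Quant.TailUniformData.posTail105Bin4Part27
import Vale.Agent.P237.Quant.TailUniformData.posTail105Bin4Part28
import Vale.Agent.P237.Quant.TailUniformData.posTail105Bin4Part29
import Vale.Agent.P237.Quant.TailUniformData.posTail105Bin4Part30
import Vale.Agent.P237.Quant.TailUniformData.posTail105Bin4Part31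
import Vale.Agent.P237.Quant.TailUniformData.posTail105Bin4Part32
import Vale.Agent.P237.Quant.TailUniformData.posTail105Bin4Part33
import Vale.Agent.P237.Quant.TailUniformData.posTail105Bin4Part34
import Vale.Agent.P237.Quant.TailUniformData.posTail105Bin4Part35
import Vale.Agent.P237.Quant.TailUniformData.posTail105Bin4Part36
import Vale.Agent.P237.Quant.TailUniformData.posTail105Bin4Part37
import Vale.Agent.P237.Quant.TailUniformData.posTail105Bin4Part38
import Vale.Agent.P237.Quant.TailUniformData.posTail105Bin4Part39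
import Vale.Agent.P237.Quant.TailUniformData.posTail105Bin4Part40
import Vale.Agent.P237.Quant.TailUniformData.posTail105Bin4Part41
import Vale.Agent.P237.Quant.TailUniformData.posTail105Bin4Part42

/-!
A checked calibration on a range of dimensions for the positive side, bin 4 of the row from 100 on 105..115.
-/

namespace Vale.Agent.P237.Quant.TailUniform

/-- The calibration. -/
noncomputable def posTail105Bin4 : Cfg := posTail105Bin4Base.withIvals (posTail105Bin4Part0 ++ posTail105Bin4Part1 ++ posTail105Bin4Part2 ++ posTail105Bin4Part3 ++ posTail105Bin4Part4 ++ posTail105Bin4Part5 ++ posTail105Bin4Part6 ++ posTail105Bin4Part7 ++ posTail105Bin4Part8 ++ posTail105Bin4Part9 ++ posTail105Bin4Part10 ++ posTail105Bin4Part11 ++ posTail105Bin4Part12 ++ posTail105Bin4Part13 ++ posTail105Bin4Part14 ++ posTail105Bin4Part15 ++ posTail105Bin4Part16 ++ posTail105Bin4Part17 ++ posTail105Bin4Part18 ++ posTail105Bin4Part19 ++ posTail105Bin4Part20 ++ posTail105Bin4Part21 ++ posTail105Bin4Part22 ++ posTail105Bin4Part23 ++ posTail105Bin4Part24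 ++ posTail105Bin4Part25 ++ posTail105Bin4Part26 ++ posTail105Bin4Part27 ++ posTail105Bin4Part28 ++ posTail105Bin4Part29 ++ posTail105Bin4Part30 ++ posTail105Bin4Part31 ++ posTail105Bin4Part32 ++ posTail105Bin4Part33 ++ posTail105Bin4Part34 ++ posTail105Bin4Part35 ++ posTail105Bin4Part36 ++ posTail105Bin4Part37 ++ posTail105Bin4Part38 ++ posTail105Bin4Part39 ++ posTail105Bin4Part40 ++ posTail105Bin4Part41 ++ posTail105Bin4Part42)

theorem posTail105Bin4_check : posTail105Bin4.check = true :=
  check_withIvals (by decide +kernel) (by simp only [List.all_append, Bool.and_eq_true]; exact ⟨⟨⟨⟨⟨⟨⟨⟨⟨⟨⟨⟨⟨⟨⟨⟨⟨⟨⟨⟨⟨⟨⟨⟨⟨⟨⟨⟨⟨⟨⟨⟨⟨⟨⟨⟨⟨⟨⟨⟨⟨⟨posTail105Bin4Part0_check, posTail105Bin4Part1_check⟩, posTail105Bin4Part2_check⟩, posTail105Bin4Part3_check⟩, posTail105Bin4Part4_check⟩, posTail105Bin4Part5_check⟩, posTail105Bin4Part6_check⟩, posTail105Bin4Part7_check⟩, posTail105Bin4Part8_check⟩, posTail105Bin4Part9_check⟩, posTail105Bin4Part10_check⟩, posTail105Bin4Part11_check⟩, posTail105Bin4Part12_check⟩, posTail105Bin4Part13_check⟩, posTail105Bin4Part14_check⟩,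 posTail105Bin4Part15_check⟩, posTail105Bin4Part16_check⟩, posTail105Bin4Part17_check⟩, posTail105Bin4Part18_check⟩, posTail105Bin4Part19_check⟩, posTail105Bin4Part20_check⟩, posTail105Bin4Part21_check⟩, posTail105Bin4Part22_check⟩, posTail105Bin4Part23_check⟩, posTail105Bin4Part24_check⟩, posTail105Bin4Part25_check⟩, posTail105Bin4Part26_check⟩, posTail105Bin4Part27_check⟩, posTail105Bin4Part28_check⟩, posTail105Bin4Part29_check⟩, posTail105Bin4Part30_check⟩, posTail105Bin4Part31_check⟩, posTail105Bin4Part32_check⟩, posTail105Bin4Part33_check⟩, posTail105Bin4Part34_check⟩, posTail105Bin4Part35_check⟩, posTail105Bin4Part36_check⟩, posTail105Bin4Part37_check⟩, posTail105Bin4Part38_check⟩, posTail105Bin4Part39_check⟩, posTail105Bin4Part40_check⟩, posTail105Bin4Part41_check⟩, posTail105Bin4Part42_check⟩)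

end Vale.Agent.P237.Quant.TailUniform
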