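import Vale.Agent.P237.Quant.TailUniformData
import Vale.Agent.P237.Quant.TailUniformData.posTail116Bin0Part0
import Vale.Agent.P237.Quant.TailUniformData.posTail116Bin0Part1
import Vale.Agent.P237.Quant.TailUniformData.posTail116Bin0Part2
import Vale.Agent.P237.Quant.TailUniformData.posTail116Bin0Part3
import Vale.Agent.P237.Quant.TailUniformData.posTail116Bin0Part4
import Vale.Agent.P237.Quant.TailUniformData.posTail116Bin0Part5
import Vale.Agent.P237.Quant.TailUniformData.posTail116Bin0Part6

/-!
A checked calibration on a range of dimensions for the positive side, bin 0 on the dimensions 116 to 135.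
-/

namespace Vale.Agent.P237.Quant.TailUniform

/-- The calibration. -/
noncomputable def posTail116Bin0 : Cfg := posTail116Bin0Base.withIvals (posTail116Bin0Part0 ++ posTail116Bin0Part1 ++ posTail116Bin0Part2 ++ posTail116Bin0Part3 ++ posTail116Bin0Part4 ++ posTail116Bin0Part5 ++ posTail116Bin0Part6)

theorem posTail116Bin0_check : posTail116Bin0.check = true :=
  check_withIvals (by decide +kernel) (by simp only [List.all_append, Bool.and_eq_true]; exact ⟨⟨⟨⟨⟨⟨posTail116Bin0Part0_check, posTail116Bin0Part1_check⟩, posTail116Bin0Part2_check⟩, posTail116Bin0Part3_check⟩, posTail116Bin0Part4_check⟩, posTail116Bin0Part5_check⟩, posTail116Bin0Part6_check⟩)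

end Vale.Agent.P237.Quant.TailUniform
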