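import Vale.Agent.P237.Quant.TailUniformData
import Vale.Agent.P237.Quant.TailUniformData.posTail136Bin2Part0
import Vale.Agent.P237.Quant.TailUniformData.posTail136Bin2Part1
import Vale.Agent.P237.Quant.TailUniformData.posTail136Bin2Part2
import Vale.Agent.P237.Quant.TailUniformData.posTail136Bin2Part3
import Vale.Agent.P237.Quant.TailUniformData.posTail136Bin2Part4
import Vale.Agent.P237.Quant.TailUniformData.posTail136Bin2Part5
import Vale.Agent.P237.Quant.TailUniformData.posTail136Bin2Part6
import Vale.Agent.P237.Quant.TailUniformData.posTail136Bin2Part7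
import Vale.Agent.P237.Quant.TailUniformData.posTail136Bin2Part8
import Vale.Agent.P237.Quant.TailUniformData.posTail136Bin2Part9
import Vale.Agent.P237.Quant.TailUniformData.posTail136Bin2Part10

/-!
A checked calibration on a range of dimensions for the positive side, bin 2 of the row from 136.
-/

namespace Vale.Agent.P237.Quant.TailUniform

/-- The calibration. -/
noncomputable def posTail136Bin2 : Cfg := posTail136Bin2Base.withIvals (posTail136Bin2Part0 ++ posTail136Bin2Part1 ++ posTail136Bin2Part2 ++ posTail136Bin2Part3 ++ posTail136Bin2Part4 ++ posTail136Bin2Part5 ++ posTail136Bin2Part6 ++ posTail136Bin2Part7 ++ posTail136Bin2Part8 ++ posTail136Bin2Part9 ++ posTail136Bin2Part10)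

theorem posTail136Bin2_check : posTail136Bin2.check = true :=
  check_withIvals (by decide +kernel) (by simp only [List.all_append, Bool.and_eq_true]; exact ⟨⟨⟨⟨⟨⟨⟨⟨⟨⟨posTail136Bin2Part0_check, posTail136Bin2Part1_check⟩, posTail136Bin2Part2_check⟩, posTail136Bin2Part3_check⟩, posTail136Bin2Part4_check⟩, posTail136Bin2Part5_check⟩, posTail136Bin2Part6_check⟩, posTail136Bin2Part7_check⟩, posTail136Bin2Part8_check⟩, posTail136Bin2Part9_check⟩, posTail136Bin2Part10_check⟩)

end Vale.Agent.P237.Quant.TailUniform
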