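import Vale.Agent.P237.Quant.TailUniformData
import Vale.Agent.P237.Quant.TailUniformData.posTail211Bin1Part0
import Vale.Agent.P237.Quant.TailUniformData.posTail211Bin1Part1
import Vale.Agent.P237.Quant.TailUniformData.posTail211Bin1Part2
import Vale.Agent.P237.Quant.TailUniformData.posTail211Bin1Part3
import Vale.Agent.P237.Quant.TailUniformData.posTail211Bin1Part4
import Vale.Agent.P237.Quant.TailUniformData.posTail211Bin1Part5
import Vale.Agent.P237.Quant.TailUniformData.posTail211Bin1Part6
import Vale.Agent.P237.Quant.TailUniformData.posTail211Bin1Part7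
import Vale.Agent.P237.Quant.TailUniformData.posTail211Bin1Part8
import Vale.Agent.P237.Quant.TailUniformData.posTail211Bin1Part9
import Vale.Agent.P237.Quant.TailUniformData.posTail211Bin1Part10
import Vale.Agent.P237.Quant.TailUniformData.posTail211Bin1Part11
import Vale.Agent.P237.Quant.TailUniformData.posTail211Bin1Part12
import Vale.Agent.P237.Quant.TailUniformData.posTail211Bin1Part13
import Vale.Agent.P237.Quant.TailUniformData.posTail211Bin1Part14
import Vale.Agent.P237.Quant.TailUniformData.posTail211Bin1Part15

/-!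
A checked calibration on a range of dimensions for the positive side, bin 1 of the row from 211.
-/

namespace Vale.Agent.P237.Quant.TailUniform

/-- The calibration. -/
noncomputable def posTail211Bin1 : Cfg := posTail211Bin1Base.withIvals (posTail211Bin1Part0 ++ posTail211Bin1Part1 ++ posTail211Bin1Part2 ++ posTail211Bin1Part3 ++ posTail211Bin1Part4 ++ posTail211Bin1Part5 ++ posTail211Bin1Part6 ++ posTail211Bin1Part7 ++ posTail211Bin1Part8 ++ posTail211Bin1Part9 ++ posTail211Bin1Part10 ++ posTail211Bin1Part11 ++ posTail211Bin1Part12 ++ posTail211Bin1Part13 ++ posTail211Bin1Part14 ++ posTail211Bin1Part15)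

theorem posTail211Bin1_check : posTail211Bin1.check = true :=
  check_withIvals (by decide +kernel) (by simp only [List.all_append, Bool.and_eq_true]; exact ⟨⟨⟨⟨⟨⟨⟨⟨⟨⟨⟨⟨⟨⟨⟨posTail211Bin1Part0_check, posTail211Bin1Part1_check⟩, posTail211Bin1Part2_check⟩, posTail211Bin1Part3_check⟩, posTail211Bin1Part4_check⟩, posTail211Bin1Part5_check⟩, posTail211Bin1Part6_check⟩, posTail211Bin1Part7_check⟩, posTail211Bin1Part8_check⟩, posTail211Bin1Part9_check⟩, posTail211Bin1Part10_check⟩, posTail211Bin1Part11_check⟩, posTail211Bin1Part12_check⟩, posTail211Bin1Part13_check⟩, posTail211Bin1Part14_check⟩, posTail211Bin1Part15_check⟩)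

end Vale.Agent.P237.Quant.TailUniform
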