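import Vale.Agent.P237.Quant.TailUniformLink
import Vale.Agent.P237.Quant.PosRowsMid
import Vale.Agent.P237.Quant.EnvelopeBinData.UniformFrom210
import Vale.Agent.P237.Quant.TailUniformData.posTail211Bin4

/-!
The tail inequality of one bin for the positive side, bin 4 of the row from 211.
-/

namespace Vale.Agent.P237.Quant.TailUniform

/-- The bin at `211 ≤ n` up to `315`. -/
theorem posTail211Bin4_tail {m : ℕ} (hm : (⟨211, 315⟩ : DimRange).Mem (m + 1)) :
    TailBin m (posRow211.W m) (1 + (posRow211.mu : ℝ) * posRow211.e2) posRow211.eta ((277/250 : ℚ) : ℝ) ((5929/2500 : ℚ) : ℝ) :=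
  tailBin_pos posTail211Bin4_check envUniformFrom210_check (by decide +kernel) (mem_of_rangeIn (by decide +kernel) hm)

end Vale.Agent.P237.Quant.TailUniform
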