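import Vale.Agent.P237.Quant.TailUniformData
import Vale.Agent.P237.Quant.TailUniformData.posTail316Bin3Part0
import Vale.Agent.P237.Quant.TailUniformData.posTail316Bin3Part1
import Vale.Agent.P237.Quant.TailUniformData.posTail316Bin3Part2
import Vale.Agent.P237.Quant.TailUniformData.posTail316Bin3Part3
import Vale.Agent.P237.Quant.TailUniformData.posTail316Bin3Part4
import Vale.Agent.P237.Quant.TailUniformData.posTail316Bin3Part5
import Vale.Agent.P237.Quant.TailUniformData.posTail316Bin3Part6
import Vale.Agent.P237.Quant.TailUniformData.posTail316Bin3Part7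
import Vale.Agent.P237.Quant.TailUniformData.posTail316Bin3Part8
import Vale.Agent.P237.Quant.TailUniformData.posTail316Bin3Part9
import Vale.Agent.P237.Quant.TailUniformData.posTail316Bin3Part10
import Vale.Agent.P237.Quant.TailUniformData.posTail316Bin3Part11
import Vale.Agent.P237.Quant.TailUniformData.posTail316Bin3Part12
import Vale.Agent.P237.Quant.TailUniformData.posTail316Bin3Part13
import Vale.Agent.P237.Quant.TailUniformData.posTail316Bin3Part14
import Vale.Agent.P237.Quant.TailUniformData.posTail316Bin3Part15
import Vale.Agent.P237.Quant.TailUniformData.posTail316Bin3Part16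

/-!
A checked calibration on a range of dimensions for the positive side, bin 3 of the row from 316.
-/

namespace Vale.Agent.P237.Quant.TailUniform

/-- The calibration. -/
noncomputable def posTail316Bin3 : Cfg := posTail316Bin3Base.withIvals (posTail316Bin3Part0 ++ posTail316Bin3Part1 ++ posTail316Bin3Part2 ++ posTail316Bin3Part3 ++ posTail316Bin3Part4 ++ posTail316Bin3Part5 ++ posTail316Bin3Part6 ++ posTail316Bin3Part7 ++ posTail316Bin3Part8 ++ posTail316Bin3Part9 ++ posTail316Bin3Part10 ++ posTail316Bin3Part11 ++ posTail316Bin3Part12 ++ posTail316Bin3Part13 ++ posTail316Bin3Part14 ++ posTail316Bin3Part15 ++ posTail316Bin3Part16)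

theorem posTail316Bin3_check : posTail316Bin3.check = true :=
  check_withIvals (by decide +kernel) (by simp only [List.all_append, Bool.and_eq_true]; exact ⟨⟨⟨⟨⟨⟨⟨⟨⟨⟨⟨⟨⟨⟨⟨⟨posTail316Bin3Part0_check, posTail316Bin3Part1_check⟩, posTail316Bin3Part2_check⟩, posTail316Bin3Part3_check⟩, posTail316Bin3Part4_check⟩, posTail316Bin3Part5_check⟩, posTail316Bin3Part6_check⟩, posTail316Bin3Part7_check⟩, posTail316Bin3Part8_check⟩, posTail316Bin3Part9_check⟩, posTail316Bin3Part10_check⟩, posTail316Bin3Part11_check⟩, posTail316Bin3Part12_check⟩, posTail316Bin3Part13_check⟩, posTail316Bin3Part14_check⟩, posTail316Bin3Part15_check⟩, posTail316Bin3Part16_check⟩)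

end Vale.Agent.P237.Quant.TailUniform
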