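import Vale.Agent.P237.Quant.TailUniformData
import Vale.Agent.P237.Quant.TailUniformData.posTail316Bin4Part0
import Vale.Agent.P237.Quant.TailUniformData.posTail316Bin4Part1
import Vale.Agent.P237.Quant.TailUniformData.posTail316Bin4Part2
import Vale.Agent.P237.Quant.TailUniformData.posTail316Bin4Part3
import Vale.Agent.P237.Quant.TailUniformData.posTail316Bin4Part4
import Vale.Agent.P237.Quant.TailUniformData.posTail316Bin4Part5
import Vale.Agent.P237.Quant.TailUniformData.posTail316Bin4Part6
import Vale.Agent.P237.Quant.TailUniformData.posTail316Bin4Part7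
import Vale.Agent.P237.Quant.TailUniformData.posTail316Bin4Part8
import Vale.Agent.P237.Quant.TailUniformData.posTail316Bin4Part9
import Vale.Agent.P237.Quant.TailUniformData.posTail316Bin4Part10
import Vale.Agent.P237.Quant.TailUniformData.posTail316Bin4Part11
import Vale.Agent.P237.Quant.TailUniformData.posTail316Bin4Part12
import Vale.Agent.P237.Quant.TailUniformData.posTail316Bin4Part13
import Vale.Agent.P237.Quant.TailUniformData.posTail316Bin4Part14
import Vale.Agent.P237.Quant.TailUniformData.posTail316Bin4Part15
import Vale.Agent.P237.Quant.TailUniformData.posTail316Bin4Part16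
import Vale.Agent.P237.Quant.TailUniformData.posTail316Bin4Part17

/-!
A checked calibration on a range of dimensions for the positive side, bin 4 of the row from 316.
-/

namespace Vale.Agent.P237.Quant.TailUniform

/-- The calibration. -/
noncomputable def posTail316Bin4 : Cfg := posTail316Bin4Base.withIvals (posTail316Bin4Part0 ++ posTail316Bin4Part1 ++ posTail316Bin4Part2 ++ posTail316Bin4Part3 ++ posTail316Bin4Part4 ++ posTail316Bin4Part5 ++ posTail316Bin4Part6 ++ posTail316Bin4Part7 ++ posTail316Bin4Part8 ++ posTail316Bin4Part9 ++ posTail316Bin4Part10 ++ posTail316Bin4Part11 ++ posTail316Bin4Part12 ++ posTail316Bin4Part13 ++ posTail316Bin4Part14 ++ posTail316Bin4Part15 ++ posTail316Bin4Part16 ++ posTail316Bin4Part17)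

theorem posTail316Bin4_check : posTail316Bin4.check = true :=
  check_withIvals (by decide +kernel) (by simp only [List.all_append, Bool.and_eq_true]; exact ⟨⟨⟨⟨⟨⟨⟨⟨⟨⟨⟨⟨⟨⟨⟨⟨⟨posTail316Bin4Part0_check, posTail316Bin4Part1_check⟩, posTail316Bin4Part2_check⟩, posTail316Bin4Part3_check⟩, posTail316Bin4Part4_check⟩, posTail316Bin4Part5_check⟩, posTail316Bin4Part6_check⟩, posTail316Bin4Part7_check⟩, posTail316Bin4Part8_check⟩, posTail316Bin4Part9_check⟩, posTail316Bin4Part10_check⟩, posTail316Bin4Part11_check⟩, posTail316Bin4Part12_check⟩, posTail316Bin4Part13_check⟩, posTail316Bin4Part14_check⟩, posTail316Bin4Part15_check⟩, posTail316Bin4Part16_check⟩, posTail316Bin4Part17_check⟩)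

end Vale.Agent.P237.Quant.TailUniform
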