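import Vale.Agent.P237.Quant.TailUniformData
import Vale.Agent.P237.Quant.TailUniformData.posTail451Bin1Part0
import Vale.Agent.P237.Quant.TailUniformData.posTail451Bin1Part1
import Vale.Agent.P237.Quant.TailUniformData.posTail451Bin1Part2
import Vale.Agent.P237.Quant.TailUniformData.posTail451Bin1Part3
import Vale.Agent.P237.Quant.TailUniformData.posTail451Bin1Part4
import Vale.Agent.P237.Quant.TailUniformData.posTail451Bin1Part5
import Vale.Agent.P237.Quant.TailUniformData.posTail451Bin1Part6
import Vale.Agent.P237.Quant.TailUniformData.posTail451Bin1Part7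
import Vale.Agent.P237.Quant.TailUniformData.posTail451Bin1Part8
import Vale.Agent.P237.Quant.TailUniformData.posTail451Bin1Part9
import Vale.Agent.P237.Quant.TailUniformData.posTail451Bin1Part10
import Vale.Agent.P237.Quant.TailUniformData.posTail451Bin1Part11
import Vale.Agent.P237.Quant.TailUniformData.posTail451Bin1Part12
import Vale.Agent.P237.Quant.TailUniformData.posTail451Bin1Part13
import Vale.Agent.P237.Quant.TailUniformData.posTail451Bin1Part14
import Vale.Agent.P237.Quant.TailUniformData.posTail451Bin1Part15
import Vale.Agent.P237.Quant.TailUniformData.posTail451Bin1Part16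
import Vale.Agent.P237.Quant.TailUniformData.posTail451Bin1Part17
import Vale.Agent.P237.Quant.TailUniformData.posTail451Bin1Part18
import Vale.Agent.P237.Quant.TailUniformData.posTail451Bin1Part19
import Vale.Agent.P237.Quant.TailUniformData.posTail451Bin1Part20
import Vale.Agent.P237.Quant.TailUniformData.posTail451Bin1Part21

/-!
A checked calibration on a range of dimensions for the positive side, bin 1 of the row from 451.
-/

namespace Vale.Agent.P237.Quant.TailUniform

/-- The calibration. -/
noncomputable def posTail451Bin1 : Cfg := posTail451Bin1Base.withIvals (posTail451Bin1Part0 ++ posTail451Bin1Part1 ++ posTail451Bin1Part2 ++ posTail451Bin1Part3 ++ posTail451Bin1Part4 ++ posTail451Bin1Part5 ++ posTail451Bin1Part6 ++ posTail451Bin1Part7 ++ posTail451Bin1Part8 ++ posTail451Bin1Part9 ++ posTail451Bin1Part10 ++ posTail451Bin1Part11 ++ posTail451Bin1Part12 ++ posTail451Bin1Part13 ++ posTail451Bin1Part14 ++ posTail451Bin1Part15 ++ posTail451Bin1Part16 ++ posTail451Bin1Part17 ++ posTail451Bin1Part18 ++ posTail451Bin1Part19 ++ posTail451Bin1Part20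 ++ posTail451Bin1Part21)

theorem posTail451Bin1_check : posTail451Bin1.check = true :=
  check_withIvals (by decide +kernel) (by simp only [List.all_append, Bool.and_eq_true]; exact ⟨⟨⟨⟨⟨⟨⟨⟨⟨⟨⟨⟨⟨⟨⟨⟨⟨⟨⟨⟨⟨posTail451Bin1Part0_check, posTail451Bin1Part1_check⟩, posTail451Bin1Part2_check⟩, posTail451Bin1Part3_check⟩, posTail451Bin1Part4_check⟩, posTail451Bin1Part5_check⟩, posTail451Bin1Part6_check⟩, posTail451Bin1Part7_check⟩, posTail451Bin1Part8_check⟩, posTail451Bin1Part9_check⟩, posTail451Bin1Part10_check⟩, posTail451Bin1Part11_check⟩, posTail451Bin1Part12_check⟩, posTail451Bin1Part13_check⟩, posTail451Bin1Part14_check⟩, posTail451Bin1Part15_check⟩, posTail451Bin1Part16_check⟩, posTail451Bin1Part17_check⟩, posTail451Bin1Part18_check⟩, posTail451Bin1Part19_check⟩, posTail451Bin1Part20_check⟩, posTail451Bin1Part21_check⟩)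

end Vale.Agent.P237.Quant.TailUniform
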