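import Vale.Agent.P237.Quant.TailUniformData
import Vale.Agent.P237.Quant.TailUniformData.posTail451Bin2Part0
import Vale.Agent.P237.Quant.TailUniformData.posTail451Bin2Part1
import Vale.Agent.P237.Quant.TailUniformData.posTail451Bin2Part2
import Vale.Agent.P237.Quant.TailUniformData.posTail451Bin2Part3
import Vale.Agent.P237.Quant.TailUniformData.posTail451Bin2Part4
import Vale.Agent.P237.Quant.TailUniformData.posTail451Bin2Part5
import Vale.Agent.P237.Quant.TailUniformData.posTail451Bin2Part6
import Vale.Agent.P237.Quant.TailUniformData.posTail451Bin2Part7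
import Vale.Agent.P237.Quant.TailUniformData.posTail451Bin2Part8
import Vale.Agent.P237.Quant.TailUniformData.posTail451Bin2Part9
import Vale.Agent.P237.Quant.TailUniformData.posTail451Bin2Part10
import Vale.Agent.P237.Quant.TailUniformData.posTail451Bin2Part11

/-!
A checked calibration on a range of dimensions for the positive side, bin 2 of the row from 451.
-/

namespace Vale.Agent.P237.Quant.TailUniform

/-- The calibration. -/
noncomputable def posTail451Bin2 : Cfg := posTail451Bin2Base.withIvals (posTail451Bin2Part0 ++ posTail451Bin2Part1 ++ posTail451Bin2Part2 ++ posTail451Bin2Part3 ++ posTail451Bin2Part4 ++ posTail451Bin2Part5 ++ posTail451Bin2Part6 ++ posTail451Bin2Part7 ++ posTail451Bin2Part8 ++ posTail451Bin2Part9 ++ posTail451Bin2Part10 ++ posTail451Bin2Part11)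

theorem posTail451Bin2_check : posTail451Bin2.check = true :=
  check_withIvals (by decide +kernel) (by simp only [List.all_append, Bool.and_eq_true]; exact ⟨⟨⟨⟨⟨⟨⟨⟨⟨⟨⟨posTail451Bin2Part0_check, posTail451Bin2Part1_check⟩, posTail451Bin2Part2_check⟩, posTail451Bin2Part3_check⟩, posTail451Bin2Part4_check⟩, posTail451Bin2Part5_check⟩, posTail451Bin2Part6_check⟩, posTail451Bin2Part7_check⟩, posTail451Bin2Part8_check⟩, posTail451Bin2Part9_check⟩, posTail451Bin2Part10_check⟩, posTail451Bin2Part11_check⟩)

end Vale.Agent.P237.Quant.TailUniform
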