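import Vale.Agent.P237.Quant.TailUniformData
import Vale.Agent.P237.Quant.TailUniformData.negTail210Bin7Part0
import Vale.Agent.P237.Quant.TailUniformData.negTail210Bin7Part1
import Vale.Agent.P237.Quant.TailUniformData.negTail210Bin7Part2
import Vale.Agent.P237.Quant.TailUniformData.negTail210Bin7Part3
import Vale.Agent.P237.Quant.TailUniformData.negTail210Bin7Part4
import Vale.Agent.P237.Quant.TailUniformData.negTail210Bin7Part5
import Vale.Agent.P237.Quant.TailUniformData.negTail210Bin7Part6

/-!
A checked calibration on a range of dimensions for the negative side, bin 7 of the table from 210.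
-/

namespace Vale.Agent.P237.Quant.TailUniform

/-- The calibration. -/
noncomputable def negTail210Bin7 : Cfg := negTail210Bin7Base.withIvals (negTail210Bin7Part0 ++ negTail210Bin7Part1 ++ negTail210Bin7Part2 ++ negTail210Bin7Part3 ++ negTail210Bin7Part4 ++ negTail210Bin7Part5 ++ negTail210Bin7Part6)

theorem negTail210Bin7_check : negTail210Bin7.check = true :=
  check_withIvals (by decide +kernel) (by simp only [List.all_append, Bool.and_eq_true]; exact ⟨⟨⟨⟨⟨⟨negTail210Bin7Part0_check, negTail210Bin7Part1_check⟩, negTail210Bin7Part2_check⟩, negTail210Bin7Part3_check⟩, negTail210Bin7Part4_check⟩, negTail210Bin7Part5_check⟩, negTail210Bin7Part6_check⟩)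

end Vale.Agent.P237.Quant.TailUniform
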