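import Vale.Agent.P237.Quant.TailUniformData
import Vale.Agent.P237.Quant.TailUniformData.posTail100Bin0Part0
import Vale.Agent.P237.Quant.TailUniformData.posTail100Bin0Part1
import Vale.Agent.P237.Quant.TailUniformData.posTail100Bin0Part2
import Vale.Agent.P237.Quant.TailUniformData.posTail100Bin0Part3
import Vale.Agent.P237.Quant.TailUniformData.posTail100Bin0Part4
import Vale.Agent.P237.Quant.TailUniformData.posTail100Bin0Part5
import Vale.Agent.P237.Quant.TailUniformData.posTail100Bin0Part6
import Vale.Agent.P237.Quant.TailUniformData.posTail100Bin0Part7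
import Vale.Agent.P237.Quant.TailUniformData.posTail100Bin0Part8
import Vale.Agent.P237.Quant.TailUniformData.posTail100Bin0Part9
import Vale.Agent.P237.Quant.TailUniformData.posTail100Bin0Part10
import Vale.Agent.P237.Quant.TailUniformData.posTail100Bin0Part11
import Vale.Agent.P237.Quant.TailUniformData.posTail100Bin0Part12
import Vale.Agent.P237.Quant.TailUniformData.posTail100Bin0Part13

/-!
A checked calibration on a range of dimensions for the positive side, bin 0 on the dimensions 100 to 115.
-/

namespace Vale.Agent.P237.Quant.TailUniform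

/-- The calibration. -/
noncomputable def posTail100Bin0 : Cfg := posTail100Bin0Base.withIvals (posTail100Bin0Part0 ++ posTail100Bin0Part1 ++ posTail100Bin0Part2 ++ posTail100Bin0Part3 ++ posTail100Bin0Part4 ++ posTail100Bin0Part5 ++ posTail100Bin0Part6 ++ posTail100Bin0Part7 ++ posTail100Bin0Part8 ++ posTail100Bin0Part9 ++ posTail100Bin0Part10 ++ posTail100Bin0Part11 ++ posTail100Bin0Part12 ++ posTail100Bin0Part13)

theorem posTail100Bin0_check : posTail100Bin0.check = true :=
  check_withIvals (by decide +kernel) (by simp only [List.all_append, Bool.and_eq_true]; exact ⟨⟨⟨⟨⟨⟨⟨⟨⟨⟨⟨⟨⟨posTail100Bin0Part0_check, posTail100Bin0Part1_check⟩, posTail100Bin0Part2_check⟩, posTail100Bin0Part3_check⟩, posTail100Bin0Part4_check⟩, posTail100Bin0Part5_check⟩, posTail100Bin0Part6_check⟩, posTail100Bin0Part7_check⟩, posTail100Bin0Part8_check⟩, posTail100Bin0Part9_check⟩, posTail100Bin0Part10_check⟩, posTail100Bin0Part11_check⟩, posTail100Bin0Part12_check⟩, posTail100Bin0Part13_check⟩)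

end Vale.Agent.P237.Quant.TailUniform
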