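import Vale.Agent.P237.Quant.TailUniformData
import Vale.Agent.P237.Quant.TailUniformData.posTail136Bin0Part0
import Vale.Agent.P237.Quant.TailUniformData.posTail136Bin0Part1
import Vale.Agent.P237.Quant.TailUniformData.posTail136Bin0Part2
import Vale.Agent.P237.Quant.TailUniformData.posTail136Bin0Part3
import Vale.Agent.P237.Quant.TailUniformData.posTail136Bin0Part4
import Vale.Agent.P237.Quant.TailUniformData.posTail136Bin0Part5
import Vale.Agent.P237.Quant.TailUniformData.posTail136Bin0Part6
import Vale.Agent.P237.Quant.TailUniformData.posTail136Bin0Part7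
import Vale.Agent.P237.Quant.TailUniformData.posTail136Bin0Part8

/-!
A checked calibration on a range of dimensions for the positive side, bin 0 of the row from 136.
-/

namespace Vale.Agent.P237.Quant.TailUniform

/-- The calibration. -/
noncomputable def posTail136Bin0 : Cfg := posTail136Bin0Base.withIvals (posTail136Bin0Part0 ++ posTail136Bin0Part1 ++ posTail136Bin0Part2 ++ posTail136Bin0Part3 ++ posTail136Bin0Part4 ++ posTail136Bin0Part5 ++ posTail136Bin0Part6 ++ posTail136Bin0Part7 ++ posTail136Bin0Part8)

theorem posTail136Bin0_check : posTail136Bin0.check = true :=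
  check_withIvals (by decide +kernel) (by simp only [List.all_append, Bool.and_eq_true]; exact ⟨⟨⟨⟨⟨⟨⟨⟨posTail136Bin0Part0_check, posTail136Bin0Part1_check⟩, posTail136Bin0Part2_check⟩, posTail136Bin0Part3_check⟩, posTail136Bin0Part4_check⟩, posTail136Bin0Part5_check⟩, posTail136Bin0Part6_check⟩, posTail136Bin0Part7_check⟩, posTail136Bin0Part8_check⟩)

end Vale.Agent.P237.Quant.TailUniform
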