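import Vale.Agent.P237.Quant.TailUniformData
import Vale.Agent.P237.Quant.TailUniformData.posTail316Bin0Part0
import Vale.Agent.P237.Quant.TailUniformData.posTail316Bin0Part1
import Vale.Agent.P237.Quant.TailUniformData.posTail316Bin0Part2
import Vale.Agent.P237.Quant.TailUniformData.posTail316Bin0Part3

/-!
A checked calibration on a range of dimensions for the positive side, bin 0 of the row from 316.
-/

namespace Vale.Agent.P237.Quant.TailUniform

/-- The calibration. -/
noncomputable def posTail316Bin0 : Cfg := posTail316Bin0Base.withIvals (posTail316Bin0Part0 ++ posTail316Bin0Part1 ++ posTail316Bin0Part2 ++ posTail316Bin0Part3)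

theorem posTail316Bin0_check : posTail316Bin0.check = true :=
  check_withIvals (by decide +kernel) (by simp only [List.all_append, Bool.and_eq_true]; exact ⟨⟨⟨posTail316Bin0Part0_check, posTail316Bin0Part1_check⟩, posTail316Bin0Part2_check⟩, posTail316Bin0Part3_check⟩)

end Vale.Agent.P237.Quant.TailUniform
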