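import Vale.Agent.P237.Quant.TailUniformData
import Vale.Agent.P237.Quant.TailUniformData.posTail451Bin0Part0
import Vale.Agent.P237.Quant.TailUniformData.posTail451Bin0Part1
import Vale.Agent.P237.Quant.TailUniformData.posTail451Bin0Part2
import Vale.Agent.P237.Quant.TailUniformData.posTail451Bin0Part3
import Vale.Agent.P237.Quant.TailUniformData.posTail451Bin0Part4
import Vale.Agent.P237.Quant.TailUniformData.posTail451Bin0Part5

/-!
A checked calibration on a range of dimensions for the positive side, bin 0 of the row from 451.
-/

namespace Vale.Agent.P237.Quant.TailUniform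

/-- The calibration. -/
noncomputable def posTail451Bin0 : Cfg := posTail451Bin0Base.withIvals (posTail451Bin0Part0 ++ posTail451Bin0Part1 ++ posTail451Bin0Part2 ++ posTail451Bin0Part3 ++ posTail451Bin0Part4 ++ posTail451Bin0Part5)

theorem posTail451Bin0_check : posTail451Bin0.check = true :=
  check_withIvals (by decide +kernel) (by simp only [List.all_append, Bool.and_eq_true]; exact ⟨⟨⟨⟨⟨posTail451Bin0Part0_check, posTail451Bin0Part1_check⟩, posTail451Bin0Part2_check⟩, posTail451Bin0Part3_check⟩, posTail451Bin0Part4_check⟩, posTail451Bin0Part5_check⟩)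

end Vale.Agent.P237.Quant.TailUniform
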